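import Mathlib

/-!
# P130 full: the two literal forms of simple Lebesgue spectrum and the bridges from the
isometry form
-/

open MeasureTheory Filter Topology
open scoped ENNReal

namespace P130B

/-- The Haar probability measure of the circle `ℝ/ℤ`; the coordinate `w` of the unit circle is
`fourier 1 : t ↦ exp (2 π i t)`. -/
noncomputable abbrev haar : Measure (AddCircle (1 : ℝ)) := AddCircle.haarAddCircle

theorem mulW_mem (g : Lp ℂ 2 haar) : MemLp (fun t => fourier 1 t * g t) 2 haar := by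
  refine (Lp.memLp g).of_le ?_ ?_
  · exact ((fourier 1).continuous.aestronglyMeasurable).mul (Lp.aestronglyMeasurable g)
  · refine Eventually.of_forall fun t => ?_
    rw [norm_mul, fourier_apply, Circle.norm_coe, one_mul]

/-- Multiplication by the coordinate `w` on complex `L²` of the circle. -/
noncomputable def mulW (g : Lp ℂ 2 haar) : Lp ℂ 2 haar :=
  MemLp.toLp (fun t => fourier 1 t * g t) (mulW_mem g)

/-- The Koopman operator `f ↦ f ∘ T` of a measure-preserving transformation, on complex `L²`. -/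
noncomputable def koopman {Y : Type} [MeasurableSpace Y] {μ : Measure Y} (T : Y ≃ᵐ Y)
    (hT : MeasurePreserving T μ μ) (f : Lp ℂ 2 μ) : Lp ℂ 2 μ :=
  MemLp.toLp (fun y => f (T y)) ((Lp.memLp f).comp_measurePreserving hT)

theorem zero_mem_L20 {Y : Type} [MeasurableSpace Y] (μ : Measure Y) :
    ∫ y, (0 : Lp ℂ 2 μ) y ∂μ = 0 := by
  have h := Lp.coeFn_zero ℂ 2 μ
  rw [integral_congr_ae h]
  simp

theorem add_mem_L20 {Y : Type} [MeasurableSpace Y] (μ : Measure Y) [IsProbabilityMeasure μ]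
    {f g : Lp ℂ 2 μ} (hf : ∫ y, f y ∂μ = 0) (hg : ∫ y, g y ∂μ = 0) :
    ∫ y, (f + g : Lp ℂ 2 μ) y ∂μ = 0 := by
  have h := Lp.coeFn_add f g
  rw [integral_congr_ae h]
  have hfi : Integrable (f : Y → ℂ) μ := (Lp.memLp f).integrable (by norm_num)
  have hgi : Integrable (g : Y → ℂ) μ := (Lp.memLp g).integrable (by norm_num)
  have h2 := integral_add hfi hgi
  change ∫ y, (f : Y → ℂ) y + (g : Y → ℂ) y ∂μ = 0
  rw [h2, hf, hg, add_zero]

theorem smul_mem_L20 {Y : Type} [MeasurableSpace Y] (μ : Measure Y) (c : ℂ)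
    {f : Lp ℂ 2 μ} (hf : ∫ y, f y ∂μ = 0) : ∫ y, (c • f : Lp ℂ 2 μ) y ∂μ = 0 := by
  have h := Lp.coeFn_smul c f
  rw [integral_congr_ae h]
  change ∫ y, c • (f y) ∂μ = 0
  rw [integral_smul, hf, smul_zero]

/-- The subspace `L²₀` of the functions with integral zero. -/
noncomputable def L20 {Y : Type} [MeasurableSpace Y] (μ : Measure Y) [IsProbabilityMeasure μ] :
    Submodule ℂ (Lp ℂ 2 μ) where
  carrier := {f | ∫ y, f y ∂μ = 0}
  zero_mem' := zero_mem_L20 μ
  add_mem' := add_mem_L20 μ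
  smul_mem' := fun c _ hf => smul_mem_L20 μ c hf

theorem mem_L20 {Y : Type} [MeasurableSpace Y] {μ : Measure Y} [IsProbabilityMeasure μ]
    (f : Lp ℂ 2 μ) : f ∈ L20 μ ↔ ∫ y, f y ∂μ = 0 := Iff.rfl

/-- `T` has simple Lebesgue spectrum: the Koopman operator restricted to `L²₀` is unitarily
equivalent to multiplication by the coordinate `w` on `L²(S¹, m)`. -/
def SimpleLebesgueSpectrum {Y : Type} [MeasurableSpace Y] (μ : Measure Y)
    [IsProbabilityMeasure μ] (T : Y ≃ᵐ Y) (hT : MeasurePreserving T μ μ) : Prop :=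
  ∃ V : Lp ℂ 2 haar ≃ₗᵢ[ℂ] L20 μ, ∀ g, (V (mulW g) : Lp ℂ 2 μ) = koopman T hT (V g)

theorem koopman_eq {Y : Type} [MeasurableSpace Y] {μ : Measure Y} (T : Y ≃ᵐ Y)
    (hT : MeasurePreserving T μ μ) (f : Lp ℂ 2 μ) :
    koopman T hT f = Lp.compMeasurePreserving T hT f := by
  apply Lp.ext
  exact (MemLp.coeFn_toLp _).trans (Lp.coeFn_compMeasurePreserving f hT).symm

/-- The isometry form. -/
def MainStmt : Prop := ∃ (Y : Type) (_ : MeasurableSpace Y) (_ : StandardBorelSpace Y)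
    (μ : Measure Y) (_ : IsProbabilityMeasure μ) (_ : NullSingletonClass μ) (T : Y ≃ᵐ Y)
    (hT : MeasurePreserving T μ μ) (V : Lp ℂ 2 haar →ₗᵢ[ℂ] Lp ℂ 2 μ),
    (∀ g k : Lp ℂ 2 haar, (k =ᵐ[haar] fun t => fourier 1 t * g t) →
      V k = Lp.compMeasurePreserving T hT (V g)) ∧
    ∀ f : Lp ℂ 2 μ, (∃ g, V g = f) ↔ ∫ y, f y ∂μ = 0

theorem unitary_form (h : MainStmt) : ∃ (Y : Type) (_ : MeasurableSpace Y)
    (_ : StandardBorelSpace Y) (μ : Measure Y) (_ : IsProbabilityMeasure μ)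
    (_ : NullSingletonClass μ) (T : Y ≃ᵐ Y) (hT : MeasurePreserving T μ μ),
    SimpleLebesgueSpectrum μ T hT := by
  obtain ⟨Y, mY, sY, μ, pμ, nμ, T, hT, V, h1, h2⟩ := h
  refine ⟨Y, mY, sY, μ, pμ, nμ, T, hT, ?_⟩
  have hmem : ∀ g, V g ∈ L20 μ := fun g => (h2 (V g)).1 ⟨g, rfl⟩
  let W : Lp ℂ 2 haar →ₗᵢ[ℂ] L20 μ :=
    { toLinearMap := V.toLinearMap.codRestrict (L20 μ) hmem
      norm_map' := fun g => by
        change ‖V g‖ = ‖g‖
        exact V.norm_map g }
  have hW : ∀ g, (W g : Lp ℂ 2 μ) = V g := fun g => rfl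
  have hs : Function.Surjective W := by
    rintro ⟨f, hf⟩
    obtain ⟨g, hg⟩ := (h2 f).2 hf
    exact ⟨g, Subtype.ext (by rw [hW, hg])⟩
  refine ⟨LinearIsometryEquiv.ofSurjective W hs, fun g => ?_⟩
  change (W (mulW g) : Lp ℂ 2 μ) = koopman T hT (W g : Lp ℂ 2 μ)
  rw [hW, hW, koopman_eq]
  exact h1 g (mulW g) (MemLp.coeFn_toLp _)

end P130B
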