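import Mathlib
import Vale.Agent.Lib.P130B.Out.Unitary

/-!
# P130 full: from an orthonormal orbit, total in the complement of the constants, to the isometry
form
-/

open MeasureTheory Filter Topology
open scoped ENNReal ComplexConjugate

namespace P130B

section hilb

variable {H : Type} [NormedAddCommGroup H] [InnerProductSpace ℂ H] [CompleteSpace H]

private theorem mul_app {H : Type} [NormedAddCommGroup H] [InnerProductSpace ℂ H]
    (A B : H ≃ₗᵢ[ℂ] H) (x : H) : (A * B) x = A (B x) := rfl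

/-- the isometry from `L²` of the circle onto the complement of `c` -/
theorem exists_isometry_of_orbit (U : H ≃ₗᵢ[ℂ] H) (c g : H) (hc : U c = c)
    (h0 : inner ℂ c g = 0) (ho : Orthonormal ℂ (fun n : ℤ => (U ^ n) g))
    (ht : ∀ x, inner ℂ c x = 0 → (∀ n : ℤ, inner ℂ ((U ^ n) g) x = 0) → x = 0) :
    ∃ V : Lp ℂ 2 haar →ₗᵢ[ℂ] H,
      (∀ u k : Lp ℂ 2 haar, (k =ᵐ[haar] fun t => fourier 1 t * u t) → V k = U (V u)) ∧
      ∀ f : H, (∃ u, V u = f) ↔ inner ℂ c f = 0 := by
  have hcn : ∀ n : ℤ, (U ^ n) c = c := by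
    have h1 : ∀ n : ℕ, (U ^ n) c = c := by
      intro n
      induction n with
      | zero => rfl
      | succ n ih => rw [pow_succ, mul_app, hc, ih]
    intro n
    obtain ⟨k, rfl | rfl⟩ := Int.eq_nat_or_neg n
    · rw [zpow_natCast, h1]
    · rw [zpow_neg, zpow_natCast]
      have h2 := h1 k
      calc (U ^ k)⁻¹ c = (U ^ k)⁻¹ ((U ^ k) c) := by rw [h2]
        _ = c := by rw [← mul_app, inv_mul_cancel]; rfl
  have hin : ∀ (n : ℤ) (x y : H), inner ℂ ((U ^ n) x) ((U ^ n) y) = inner ℂ x y :=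
    fun n x y => LinearIsometryEquiv.inner_map_map _ _ _
  have hmem : ∀ n : ℤ, (U ^ n) g ∈ (Submodule.span ℂ {c})ᗮ := by
    intro n
    rw [Submodule.mem_orthogonal_singleton_iff_inner_right]
    calc inner ℂ c ((U ^ n) g) = inner ℂ ((U ^ n) c) ((U ^ n) g) := by rw [hcn]
      _ = 0 := by rw [hin, h0]
  let E : Submodule ℂ H := (Submodule.span ℂ {c})ᗮ
  let v : ℤ → E := fun n => ⟨(U ^ n) g, hmem n⟩
  have hv : Orthonormal ℂ v := by
    rw [orthonormal_iff_ite] at ho ⊢
    intro i j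
    exact ho i j
  have hsp : (Submodule.span ℂ (Set.range v))ᗮ = ⊥ := by
    rw [Submodule.eq_bot_iff]
    rintro ⟨x, hx⟩ hx2
    have hx0 : inner ℂ c x = 0 := (Submodule.mem_orthogonal_singleton_iff_inner_right).1 hx
    have h3 : x = 0 := ht x hx0 fun n => by
      have h4 := (Submodule.mem_orthogonal _ _).1 hx2 (v n) (Submodule.subset_span ⟨n, rfl⟩)
      exact h4
    exact Subtype.ext h3
  let b : HilbertBasis ℤ ℂ E := HilbertBasis.mkOfOrthogonalEqBot hv hsp
  let V0 : Lp ℂ 2 haar ≃ₗᵢ[ℂ] E := (fourierBasis (T := (1 : ℝ))).repr.trans b.repr.symm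
  let V : Lp ℂ 2 haar →ₗᵢ[ℂ] H := E.subtypeₗᵢ.comp V0.toLinearIsometry
  have hVe : ∀ n : ℤ, V (fourierLp (T := (1 : ℝ)) 2 n) = (U ^ n) g := by
    intro n
    have h5 : b n = v n := congrFun (HilbertBasis.coe_mkOfOrthogonalEqBot hv hsp) n
    have h6 : V0 (fourierLp (T := (1 : ℝ)) 2 n) = b n := by
      rw [← congrFun (coe_fourierBasis (T := (1 : ℝ))) n]
      change b.repr.symm ((fourierBasis (T := (1 : ℝ))).repr (fourierBasis n)) = b n
      rw [HilbertBasis.repr_self, HilbertBasis.repr_symm_single]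
    change ((V0 (fourierLp (T := (1 : ℝ)) 2 n) : E) : H) = (U ^ n) g
    rw [h6, h5]
  have hVmem : ∀ u, inner ℂ c (V u) = 0 := fun u =>
    (Submodule.mem_orthogonal_singleton_iff_inner_right).1 (V0 u).2
  refine ⟨V, fun u k hk => ?_, fun f => ⟨?_, fun hf => ?_⟩⟩
  · have h7 : V k - U (V u) = 0 := by
      refine ht _ ?_ fun n => ?_
      · rw [inner_sub_right, hVmem, zero_sub, neg_eq_zero]
        calc inner ℂ c (U (V u)) = inner ℂ (U c) (U (V u)) := by rw [hc]
          _ = 0 := by rw [LinearIsometryEquiv.inner_map_map, hVmem]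
      · have h8 : (U ^ n) g = U ((U ^ (n - 1)) g) := by
          rw [← mul_app]
          congr 1
          rw [← zpow_one_add]
          congr 1
          ring
        rw [inner_sub_right, sub_eq_zero, ← hVe, V.inner_map_map, hVe, h8,
          LinearIsometryEquiv.inner_map_map, ← hVe, V.inner_map_map, L2.inner_def, L2.inner_def]
        refine integral_congr_ae ?_
        filter_upwards [hk, coeFn_fourierLp (T := (1 : ℝ)) 2 n,
          coeFn_fourierLp (T := (1 : ℝ)) 2 (n - 1)] with t e1 e2 e3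
        rw [e1, e2, e3]
        simp only [RCLike.inner_apply]
        have h9 : (fourier n t : ℂ) = fourier 1 t * fourier (n - 1) t := by
          rw [← fourier_add]
          congr 1
          congr 1
          ring
        have h10 : (fourier 1 t : ℂ) * conj (fourier 1 t : ℂ) = 1 := by
          rw [Complex.mul_conj, Complex.normSq_eq_norm_sq, fourier_apply, Circle.norm_coe]
          simp
        rw [h9, map_mul]
        calc fourier 1 t * u t * (conj (fourier 1 t : ℂ) * conj (fourier (n - 1) t : ℂ))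
            = (fourier 1 t * conj (fourier 1 t : ℂ)) * (u t * conj (fourier (n - 1) t : ℂ)) := by
              ring
          _ = u t * conj (fourier (n - 1) t : ℂ) := by rw [h10, one_mul]
    exact sub_eq_zero.1 h7
  · rintro ⟨u, rfl⟩
    exact hVmem u
  · have hfE : f ∈ E := (Submodule.mem_orthogonal_singleton_iff_inner_right).2 hf
    refine ⟨V0.symm ⟨f, hfE⟩, ?_⟩
    change ((V0 (V0.symm ⟨f, hfE⟩) : E) : H) = f
    rw [LinearIsometryEquiv.apply_symm_apply]

end hilb

/-- the isometry form from an orthonormal orbit of the Koopman operator `U`, orthogonal to the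
constant function `c = 1` and total in its complement -/
theorem mainStmt_of_orbit (h : ∃ (Y : Type) (_ : MeasurableSpace Y) (_ : StandardBorelSpace Y)
    (μ : Measure Y) (_ : IsProbabilityMeasure μ) (_ : NullSingletonClass μ) (T : Y ≃ᵐ Y)
    (hT : MeasurePreserving T μ μ) (U : Lp ℂ 2 μ ≃ₗᵢ[ℂ] Lp ℂ 2 μ) (c g : Lp ℂ 2 μ),
    (∀ f, U f = Lp.compMeasurePreserving T hT f) ∧ (c =ᵐ[μ] fun _ => (1 : ℂ)) ∧
    inner ℂ c g = 0 ∧ Orthonormal ℂ (fun n : ℤ => (U ^ n) g) ∧
    ∀ x, inner ℂ c x = 0 → (∀ n : ℤ, inner ℂ ((U ^ n) g) x = 0) → x = 0) : MainStmt := by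
  obtain ⟨Y, mY, sY, μ, pμ, nμ, T, hT, U, c, g, hU, hc, h0, ho, ht⟩ := h
  have hUc : U c = c := by
    rw [hU]
    apply Lp.ext
    refine (Lp.coeFn_compMeasurePreserving c hT).trans ?_
    have h1 := hT.quasiMeasurePreserving.ae_eq_comp hc
    refine h1.trans ?_
    exact (EventuallyEq.refl _ _ : (fun _ : Y => (1 : ℂ)) =ᵐ[μ] _).trans hc.symm
  obtain ⟨V, h2, h3⟩ := exists_isometry_of_orbit U c g hUc h0 ho ht
  refine ⟨Y, mY, sY, μ, pμ, nμ, T, hT, V, fun u k hk => ?_, fun f => ?_⟩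
  · rw [h2 u k hk, hU]
  · rw [h3 f, L2.inner_def]
    have h4 : ∫ y, inner ℂ (c y) (f y) ∂μ = ∫ y, f y ∂μ := by
      refine integral_congr_ae ?_
      filter_upwards [hc] with y hy
      rw [hy]
      simp
    rw [h4]

end P130B
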