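import Mathlib
import Vale.Agent.Lib.P130B.Out.Unitary

/-!
# P130 full: the Hilbert basis form of simple Lebesgue spectrum
-/

open MeasureTheory Filter Topology
open scoped ENNReal

namespace P130B

theorem mulW_fourier (n : ℤ) :
    mulW (fourierLp (T := (1 : ℝ)) 2 n) = fourierLp (T := (1 : ℝ)) 2 (n + 1) := by
  apply Lp.ext
  refine (MemLp.coeFn_toLp _).trans ?_
  filter_upwards [coeFn_fourierLp (T := (1 : ℝ)) 2 (n + 1), coeFn_fourierLp (T := (1 : ℝ)) 2 n]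
    with t e1 e2
  rw [e1, e2, fourier_add, mul_comm]

/-- there is an orthonormal (Hilbert) basis `b n`, `n ∈ ℤ`, of `L²₀` with `b (n + 1) = b n ∘ T` -/
theorem basis_form (h : MainStmt) : ∃ (Y : Type) (_ : MeasurableSpace Y)
    (_ : StandardBorelSpace Y) (μ : Measure Y) (_ : IsProbabilityMeasure μ)
    (_ : NullSingletonClass μ) (T : Y ≃ᵐ Y) (hT : MeasurePreserving T μ μ)
    (b : HilbertBasis ℤ ℂ (L20 μ)),
    ∀ n : ℤ, (b (n + 1) : Lp ℂ 2 μ) = koopman T hT (b n) := by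
  obtain ⟨Y, mY, sY, μ, pμ, nμ, T, hT, V, hV⟩ := unitary_form h
  refine ⟨Y, mY, sY, μ, pμ, nμ, T, hT,
    HilbertBasis.ofRepr (V.symm.trans (fourierBasis (T := (1 : ℝ))).repr), fun n => ?_⟩
  have hb : ∀ n : ℤ, (HilbertBasis.ofRepr (V.symm.trans (fourierBasis (T := (1 : ℝ))).repr) :
      HilbertBasis ℤ ℂ (L20 μ)) n = V (fourierLp (T := (1 : ℝ)) 2 n) := by
    intro n
    rw [← congrFun (coe_fourierBasis (T := (1 : ℝ))) n]
    rfl
  rw [hb, hb, ← hV, mulW_fourier]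

end P130B
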