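import Mathlib

/-!
# Isometries from equal Gram matrices
-/

open Filter Topology

namespace P130B

variable {H K : Type*} [NormedAddCommGroup H] [InnerProductSpace ℂ H] [CompleteSpace H]
  [NormedAddCommGroup K] [InnerProductSpace ℂ K] [CompleteSpace K]

theorem gram_inner {E : Type*} [NormedAddCommGroup E] [InnerProductSpace ℂ E] {ι : Type*}
    (v : ι → E) (c : ι →₀ ℂ) :
    inner ℂ (Finsupp.linearCombination ℂ v c) (Finsupp.linearCombination ℂ v c) =
      c.sum fun i x => c.sum fun j y => (starRingEnd ℂ x) * (y * inner ℂ (v i) (v j)) := by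
  rw [Finsupp.linearCombination_apply, Finsupp.sum_inner]
  refine Finsupp.sum_congr fun i _ => ?_
  rw [Finsupp.inner_sum]
  refine Finsupp.sum_congr fun j _ => ?_
  rw [inner_smul_left, inner_smul_right]

theorem gram_norm {ι : Type*} (a : ι → K) (b : ι → H)
    (hg : ∀ i j, inner ℂ (a i) (a j) = inner ℂ (b i) (b j)) (c : ι →₀ ℂ) :
    ‖Finsupp.linearCombination ℂ b c‖ = ‖Finsupp.linearCombination ℂ a c‖ := by
  have h3 : inner ℂ (Finsupp.linearCombination ℂ b c) (Finsupp.linearCombination ℂ b c) =
      inner ℂ (Finsupp.linearCombination ℂ a c) (Finsupp.linearCombination ℂ a c) := by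
    rw [gram_inner, gram_inner]
    simp only [hg]
  rw [inner_self_eq_norm_sq_to_K, inner_self_eq_norm_sq_to_K] at h3
  have h4 : ‖Finsupp.linearCombination ℂ b c‖ ^ 2 = ‖Finsupp.linearCombination ℂ a c‖ ^ 2 := by
    exact_mod_cast h3
  exact (sq_eq_sq₀ (norm_nonneg _) (norm_nonneg _)).1 h4

/-- Two families with the same Gram matrix, the first of them total: there is a linear isometry
that maps one to the other, and its range is the closed span of the second family. -/
theorem exists_isometry_of_gram {ι : Type*} (a : ι → K) (b : ι → H)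
    (hg : ∀ i j, inner ℂ (a i) (a j) = inner ℂ (b i) (b j))
    (ha : (Submodule.span ℂ (Set.range a)).topologicalClosure = ⊤) :
    ∃ V : K →ₗᵢ[ℂ] H, (∀ i, V (a i) = b i) ∧
      ∀ f, (∃ g, V g = f) ↔ f ∈ (Submodule.span ℂ (Set.range b)).topologicalClosure := by
  classical
  set La := Finsupp.linearCombination ℂ a with hLa
  set Lb := Finsupp.linearCombination ℂ b with hLb
  have hn : ∀ c, ‖Lb c‖ = ‖La c‖ := gram_norm a b hg
  have hker : LinearMap.ker La ≤ LinearMap.ker Lb := by
    intro c hc
    rw [LinearMap.mem_ker] at hc ⊢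
    rw [← norm_eq_zero, hn, hc, norm_zero]
  let e := La.quotKerEquivRange
  let V0 : LinearMap.range La →ₗ[ℂ] H := ((LinearMap.ker La).liftQ Lb hker).comp e.symm.toLinearMap
  have hV0 : ∀ c, V0 ⟨La c, LinearMap.mem_range_self La c⟩ = Lb c := by
    intro c
    change ((LinearMap.ker La).liftQ Lb hker) (e.symm ⟨La c, LinearMap.mem_range_self La c⟩) = Lb c
    have h1 : e (Submodule.Quotient.mk c) = ⟨La c, LinearMap.mem_range_self La c⟩ := rfl
    rw [← h1, LinearEquiv.symm_apply_apply]
    rfl
  have hV0n : ∀ x : LinearMap.range La, ‖V0 x‖ = ‖x‖ := by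
    rintro ⟨x, c, rfl⟩
    rw [hV0 c, hn c]
    rfl
  let V1 : LinearMap.range La →L[ℂ] H := V0.mkContinuous 1 fun x => by rw [hV0n, one_mul]
  have hr : LinearMap.range La = Submodule.span ℂ (Set.range a) :=
    Finsupp.range_linearCombination ℂ
  have hdense : DenseRange (Submodule.subtypeL (LinearMap.range La)) := by
    have h1 : Set.range (Submodule.subtypeL (LinearMap.range La)) =
        ((LinearMap.range La : Submodule ℂ K) : Set K) := by
      ext x
      simp
    rw [DenseRange, h1, hr]
    rw [← Submodule.dense_iff_topologicalClosure_eq_top] at ha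
    exact ha
  have hui : IsUniformInducing (Submodule.subtypeL (LinearMap.range La)) :=
    isUniformEmbedding_subtype_val.isUniformInducing
  let V2 : K →L[ℂ] H := V1.extend (Submodule.subtypeL (LinearMap.range La))
  have hV2 : ∀ x : LinearMap.range La, V2 (x : K) = V0 x := fun x =>
    ContinuousLinearMap.extend_eq V1 hdense hui x
  have hV2n : ∀ x, ‖V2 x‖ = ‖x‖ := by
    intro x
    refine hdense.induction_on (p := fun x => ‖V2 x‖ = ‖x‖) x ?_ ?_
    · exact isClosed_eq (V2.continuous.norm) continuous_norm
    · intro y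
      change ‖V2 (y : K)‖ = ‖(y : K)‖
      rw [hV2, hV0n]
      rfl
  let V : K →ₗᵢ[ℂ] H := ⟨V2.toLinearMap, hV2n⟩
  have hVa : ∀ i, V (a i) = b i := by
    intro i
    have h1 : La (Finsupp.single i 1) = a i := by
      rw [hLa, Finsupp.linearCombination_single, one_smul]
    have h2 : Lb (Finsupp.single i 1) = b i := by
      rw [hLb, Finsupp.linearCombination_single, one_smul]
    change V2 (a i) = b i
    have h3 := hV2 ⟨La (Finsupp.single i 1), LinearMap.mem_range_self La _⟩
    rw [hV0, h2] at h3
    simpa only [h1] using h3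
  refine ⟨V, hVa, fun f => ⟨?_, ?_⟩⟩
  · rintro ⟨g, rfl⟩
    have hg1 : g ∈ (Submodule.span ℂ (Set.range a)).topologicalClosure := by
      rw [ha]; exact Submodule.mem_top
    have h1 : Submodule.map V.toLinearMap (Submodule.span ℂ (Set.range a)) ≤
        Submodule.span ℂ (Set.range b) := by
      rw [Submodule.map_span, Submodule.span_le]
      rintro _ ⟨_, ⟨i, rfl⟩, rfl⟩
      exact Submodule.subset_span ⟨i, (hVa i).symm⟩
    have h2 : g ∈ closure ((Submodule.span ℂ (Set.range a) : Submodule ℂ K) : Set K) := hg1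
    change V g ∈ closure ((Submodule.span ℂ (Set.range b) : Submodule ℂ H) : Set H)
    exact map_mem_closure V.continuous h2 fun x hx => h1 ⟨x, hx, rfl⟩
  · intro hf
    have hcl : IsClosed (Set.range V) := V.isometry.isClosedEmbedding.isClosed_range
    have h1 : ((Submodule.span ℂ (Set.range b) : Submodule ℂ H) : Set H) ⊆ Set.range V := by
      have h3 : Submodule.span ℂ (Set.range b) ≤ LinearMap.range V.toLinearMap := by
        rw [Submodule.span_le]
        rintro _ ⟨i, rfl⟩
        exact ⟨a i, hVa i⟩
      intro x hx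
      exact h3 hx
    have h2 : f ∈ closure ((Submodule.span ℂ (Set.range b) : Submodule ℂ H) : Set H) := hf
    exact (closure_minimal h1 hcl) h2

end P130B
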