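import Mathlib
import Vale.Agent.Lib.P130B.Out.Unitary

/-!
# P130 full: the orthonormal-orbit form of simple Lebesgue spectrum
-/

open MeasureTheory Filter Topology
open scoped ENNReal

namespace P130B

/-- The point `T ^ n y`, for an integer `n`. -/
def orbit {Y : Type} [MeasurableSpace Y] (T : Y ≃ᵐ Y) (n : ℤ) (y : Y) : Y :=
  ((T.toEquiv : Equiv.Perm Y) ^ n) y

/-- The inner product of `g` and `h ∘ T ^ n` in complex `L²`. -/
noncomputable def corr {Y : Type} [MeasurableSpace Y] (μ : Measure Y) (T : Y ≃ᵐ Y)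
    (g h : Y → ℂ) (n : ℤ) : ℂ :=
  ∫ y, starRingEnd ℂ (g y) * h (orbit T n y) ∂μ

section aux

variable {Y : Type} [MeasurableSpace Y] {μ : Measure Y} {T : Y ≃ᵐ Y}

theorem orbit_nat (k : ℕ) (y : Y) : orbit T k y = T^[k] y := by
  unfold orbit
  rw [zpow_natCast, ← Equiv.Perm.iterate_eq_pow]
  rfl

theorem orbit_neg (k : ℕ) (y : Y) : orbit T (-(k : ℤ)) (T^[k] y) = y := by
  rw [← orbit_nat]
  unfold orbit
  rw [← Equiv.Perm.mul_apply, ← zpow_add, neg_add_cancel, zpow_zero, Equiv.Perm.one_apply]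

theorem int_iter (hT : MeasurePreserving T μ μ) (F : Y → ℂ) (k : ℕ) :
    ∫ y, F (T^[k] y) ∂μ = ∫ y, F y ∂μ := by
  induction k with
  | zero => rfl
  | succ k ih =>
    rw [← ih]
    simp only [Function.iterate_succ_apply]
    exact hT.integral_comp T.measurableEmbedding (fun y => F (T^[k] y))

theorem corr_neg (hT : MeasurePreserving T μ μ) (g h : Y → ℂ) (k : ℕ) :
    corr μ T g h (-(k : ℤ)) = ∫ y, starRingEnd ℂ (g (T^[k] y)) * h y ∂μ := by
  unfold corr
  rw [← int_iter hT (fun y => starRingEnd ℂ (g y) * h (orbit T (-(k : ℤ)) y)) k]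
  refine integral_congr_ae (Eventually.of_forall fun y => ?_)
  simp only [orbit_neg]

theorem iter_coe (hT : MeasurePreserving T μ μ) (H : Lp ℂ 2 μ) (k : ℕ) :
    (((Lp.compMeasurePreserving T hT)^[k] H : Lp ℂ 2 μ) : Y → ℂ) =ᵐ[μ] fun y => H (T^[k] y) := by
  induction k with
  | zero => rfl
  | succ k ih =>
    rw [Function.iterate_succ_apply']
    refine (Lp.coeFn_compMeasurePreserving _ hT).trans ?_
    have := hT.quasiMeasurePreserving.ae_eq_comp ih
    refine this.trans (Eventually.of_forall fun y => ?_)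
    simp only [Function.comp_apply, Function.iterate_succ_apply]

theorem inner_eq (F G : Lp ℂ 2 μ) :
    inner ℂ F G = ∫ y, starRingEnd ℂ (F y) * G y ∂μ := by
  rw [L2.inner_def]
  refine integral_congr_ae (Eventually.of_forall fun y => ?_)
  simp only [RCLike.inner_apply]
  ring

theorem inner_nat (hT : MeasurePreserving T μ μ) (G H : Lp ℂ 2 μ) {g h : Y → ℂ}
    (hg : (G : Y → ℂ) =ᵐ[μ] g) (hh : (H : Y → ℂ) =ᵐ[μ] h) (k : ℕ) :
    inner ℂ G ((Lp.compMeasurePreserving T hT)^[k] H) = corr μ T g h k := by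
  rw [inner_eq]
  unfold corr
  have h1 : (fun y => h (T^[k] y)) =ᵐ[μ] fun y => H (T^[k] y) :=
    ((hT.iterate k).quasiMeasurePreserving.ae_eq_comp hh).symm
  refine integral_congr_ae ?_
  filter_upwards [hg, h1, iter_coe hT H k] with y e1 e2 e3
  rw [e1, e3, orbit_nat, e2]

theorem inner_neg' (hT : MeasurePreserving T μ μ) (G H : Lp ℂ 2 μ) {g h : Y → ℂ}
    (hg : (G : Y → ℂ) =ᵐ[μ] g) (hh : (H : Y → ℂ) =ᵐ[μ] h) (k : ℕ) :
    inner ℂ ((Lp.compMeasurePreserving T hT)^[k] G) H = corr μ T g h (-(k : ℤ)) := by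
  rw [inner_eq, corr_neg hT]
  have h1 : (fun y => g (T^[k] y)) =ᵐ[μ] fun y => G (T^[k] y) :=
    ((hT.iterate k).quasiMeasurePreserving.ae_eq_comp hg).symm
  refine integral_congr_ae ?_
  filter_upwards [hh, h1, iter_coe hT G k] with y e1 e2 e3
  rw [e1, e3, e2]

end aux

theorem orbit_form (h : MainStmt) : ∃ (Y : Type) (_ : MeasurableSpace Y)
    (_ : StandardBorelSpace Y) (μ : Measure Y) (_ : IsProbabilityMeasure μ)
    (_ : NullSingletonClass μ) (T : Y ≃ᵐ Y), MeasurePreserving T μ μ ∧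
    ∃ f : Y → ℂ, MemLp f 2 μ ∧ ∫ y, f y ∂μ = 0 ∧
      (∀ n : ℤ, corr μ T f f n = if n = 0 then 1 else 0) ∧
      ∀ g : Y → ℂ, MemLp g 2 μ → ∫ y, g y ∂μ = 0 → (∀ n : ℤ, corr μ T g f n = 0) →
        g =ᵐ[μ] 0 := by
  obtain ⟨Y, mY, sY, μ, pμ, nμ, T, hT, V, h1, h2⟩ := h
  let U := Lp.compMeasurePreserving (E := ℂ) (p := 2) T hT
  let e : ℤ → Lp ℂ 2 (AddCircle.haarAddCircle (T := 1)) := fun n => fourierLp 2 n
  have hVe : ∀ n : ℤ, V (e (n + 1)) = U (V (e n)) := by
    intro n
    refine h1 (e n) (e (n + 1)) ?_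
    filter_upwards [coeFn_fourierLp (T := (1 : ℝ)) 2 (n + 1), coeFn_fourierLp (T := (1 : ℝ)) 2 n]
      with t e1 e2
    rw [e1, e2, fourier_add, mul_comm]
  have hVk : ∀ (k : ℕ) (n : ℤ), V (e (n + k)) = U^[k] (V (e n)) := by
    intro k
    induction k with
    | zero => intro n; simp
    | succ k ih =>
      intro n
      rw [Function.iterate_succ_apply', ← ih n, ← hVe]
      congr 2
      push_cast
      ring
  have hUi : ∀ F G : Lp ℂ 2 μ, inner ℂ (U F) (U G) = inner ℂ F G := by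
    intro F G
    have e1 := inner_nat hT (U F) G (g := fun y => F (T y)) (h := fun y => G y)
      (Lp.coeFn_compMeasurePreserving F hT) (EventuallyEq.refl _ _) 1
    rw [Function.iterate_one] at e1
    rw [e1, inner_eq]
    unfold corr
    have e2 := int_iter hT (fun y => starRingEnd ℂ (F y) * G y) 1
    rw [← e2]
    refine integral_congr_ae (Eventually.of_forall fun y => ?_)
    simp only [Nat.cast_one]
    have e3 := orbit_nat (T := T) 1 y
    rw [Nat.cast_one] at e3
    rw [e3]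
    rfl
  have hUk : ∀ (k : ℕ) (F G : Lp ℂ 2 μ), inner ℂ (U^[k] F) (U^[k] G) = inner ℂ F G := by
    intro k
    induction k with
    | zero => intro F G; rfl
    | succ k ih =>
      intro F G
      rw [Function.iterate_succ_apply', Function.iterate_succ_apply', hUi, ih]
  have horth : ∀ m n : ℤ, inner ℂ (V (e m)) (V (e n)) = if m = n then (1 : ℂ) else 0 := by
    intro m n
    rw [V.inner_map_map]
    exact (orthonormal_iff_ite.1 (orthonormal_fourier (T := (1 : ℝ)))) m n
  -- a vector orthogonal to the orbit is orthogonal to the range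
  have hperp : ∀ G : Lp ℂ 2 μ, (∀ n : ℤ, corr μ T G (V (e 0)) n = 0) →
      ∀ w, inner ℂ (V w) G = 0 := by
    intro G hG
    have hb : ∀ n : ℤ, inner ℂ (V (e n)) G = 0 := by
      intro n
      rw [inner_eq_zero_symm]
      rcases Int.eq_nat_or_neg n with ⟨k, hk | hk⟩
      · have := inner_nat hT G (V (e 0)) (EventuallyEq.refl _ _) (EventuallyEq.refl _ _) k
        rw [hG, ← hVk, zero_add] at this
        rw [hk]
        exact this
      · have := inner_neg' hT G (V (e 0)) (EventuallyEq.refl _ _) (EventuallyEq.refl _ _) k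
        rw [hG] at this
        have h6 := hVk k n
        rw [hk, neg_add_cancel] at h6
        rw [h6] at this
        rw [hk, ← hUk k]
        exact this
    have hspan : (⊤ : Submodule ℂ (Lp ℂ 2 (AddCircle.haarAddCircle (T := 1)))) ≤
        LinearMap.ker ((innerSL ℂ G).comp V.toContinuousLinearMap).toLinearMap := by
      rw [← span_fourierLp_closure_eq_top (T := (1 : ℝ)) (p := 2) (by norm_num)]
      refine Submodule.topologicalClosure_minimal _ ?_
        (ContinuousLinearMap.isClosed_ker ((innerSL ℂ G).comp V.toContinuousLinearMap))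
      rw [Submodule.span_le]
      rintro _ ⟨n, rfl⟩
      exact inner_eq_zero_symm.1 (hb n)
    intro w
    rw [inner_eq_zero_symm]
    exact hspan (Submodule.mem_top : w ∈ ⊤)
  refine ⟨Y, mY, sY, μ, pμ, nμ, T, hT, V (e 0), Lp.memLp _, (h2 _).1 ⟨_, rfl⟩, ?_, ?_⟩
  · intro n
    rcases Int.eq_nat_or_neg n with ⟨k, hk | hk⟩
    · rw [hk, ← inner_nat hT (V (e 0)) (V (e 0)) (EventuallyEq.refl _ _) (EventuallyEq.refl _ _),
        ← hVk, horth, zero_add]
      simp only [eq_comm]
    · rw [hk, ← inner_neg' hT (V (e 0)) (V (e 0)) (EventuallyEq.refl _ _) (EventuallyEq.refl _ _),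
        ← hVk, horth, zero_add]
      simp only [neg_eq_zero]
  · intro g hg hg0 hn
    have h6 := hg.coeFn_toLp
    have h7 : ∫ y, (hg.toLp g : Lp ℂ 2 μ) y ∂μ = 0 := by
      rw [integral_congr_ae h6]
      exact hg0
    obtain ⟨w, hw⟩ := (h2 (hg.toLp g)).2 h7
    have h8 : inner ℂ (V w) (hg.toLp g) = 0 := by
      refine hperp _ (fun n => ?_) w
      rw [← hn n]
      unfold corr
      refine integral_congr_ae ?_
      filter_upwards [hg.coeFn_toLp] with y hy
      rw [hy]
    rw [hw, inner_self_eq_zero] at h8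
    rw [h8] at h6
    exact h6.symm.trans (Lp.coeFn_zero _ _ _)

end P130B
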