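import Vale.Agent.Lib.P130B.Out.Unitary
import Vale.Agent.Lib.P130B.Out.Orbit
import Vale.Agent.Lib.P130B.Out.Basis
import Vale.Agent.Lib.P130B.G.Main
import Vale.Agent.Lib.P130B.F.U

/-!
# P130 full: the main theorem in the isometry form
-/

namespace P130B

/-- some invertible measure-preserving transformation of a standard nonatomic probability space
has simple Lebesgue spectrum -/
theorem mainStmt : MainStmt :=
  Vale.Agent.P130B.mainStmt_of_flat01 fun _ _ hε hη => Vale.Agent.P130B.flat01 hε hη

end P130B
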